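import Crest.Agent.X262.Coh.Defs
import Crest.Agent.X262.Top.Defs
import Crest.Agent.X262.Qt.Defs

/-!
# Row 262, CHN (helper49): the statements which give `GWLStmt`

* `Ge U V`, `mor h` : domination of smooth models of `K`, the birational morphism;
* `Bw K`            : the blow-up of a smooth surface in a smooth model of `K` (output form);
* `hf`, `NI`, `Om`, `up h N`, `b.t`, `b.blk`, `b.LH`;
* `Roots C K`, `RootStmt` : the input from Gromov-Witten theory;
* `ModStmt`, `BlowStmt`, `H31Stmt`, `NZStmt`, `MatchStmt`, `TransStmt`;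
* `Frm C`           : formal consequences of `C.Ax` in the shape which is used in `Chn/Main`.
-/

set_option autoImplicit false

open scoped KaehlerDifferential

noncomputable section

namespace Crest.Agent.X262.Chn

open Crest.Agent.X277 Crest.Agent.X277.Lef Crest.Agent.X277.AN.G1 Crest.Agent.X277.BD
open Crest.Agent.X277.BD.Br (On oP morOf)
open Crest.Agent.X277.BD.Cyc (Rf)
open Crest.Agent.X277.Pst (Prm Dvs loc)
open Crest.Agent.X277.Res.Out (Van Coords)
open Crest.Agent.X262.Coh Crest.Agent.X262.Top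

variable {K : Type} [Field K] [Algebra ℂ K]

/-- `U` dominates `V` -/
def Ge (U V : PModel ℂ K) : Prop := oP V ∈ On U

/-- the birational morphism -/
def mor {U V : PModel ℂ K} (h : Ge U V) : Hom (sv U) (sv V) :=
  morOf (AlgHom.id ℂ K) (by rw [pb_id]; exact h)

theorem mor_p {U V : PModel ℂ K} (h : Ge U V) : (mor h).p = Plc.ofHom (AlgHom.id ℂ K) := rfl

theorem bim_mor {U V : PModel ℂ K} (h : Ge U V) : Bim (mor h) :=
  ⟨AlgHom.id ℂ K, rfl, Function.surjective_id⟩

/-- the generic point of `Q` goes to the generic point of the valuation ring `W` -/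
def Alg {Q : SV} {U : PModel ℂ K} (u : Hom Q (sv U)) (W : RZ ℂ K) : Prop :=
  ∀ f : K, f ∈ u.p.O ↔ f ∈ W.1

variable (K) in
/-- the blow-up `hi` of the smooth surface `Z` in the smooth fourfold `lo` -/
structure Bw where
  /-- the model which is blown up -/
  lo : PModel ℂ K
  /-- the blow-up -/
  hi : PModel ℂ K
  ge : Ge hi lo
  /-- the centre -/
  Z : SV
  /-- the exceptional divisor -/
  E : SV
  /-- the embedding of the centre -/
  i : Hom Z (sv lo)
  /-- the embedding of the exceptional divisor -/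
  j : Hom E (sv hi)
  /-- the projection -/
  π : Hom E Z
  /-- the exceptional divisor as a b-divisor -/
  e : BD ℂ K
  /-- its valuation ring -/
  V : RZ ℂ K
  dimK : BD.dim ℂ K = 4
  dimE : E.dim = 3
  dimZ : Z.dim = 2
  emb : IsEmb i
  dv : IsDv j e
  comm : (Mor.comp (mor ge) j).map = (Mor.comp i π).map
  along : Alg j V
  /-- `i.p.O` is the local ring of the centre -/
  lcl : ∀ z : Z.Pt, ∀ f ∈ i.p.O, ∃ c ∈ (lp (i.map z)).O, i.p.π c ≠ 0 ∧ c * f ∈ (lp (i.map z)).O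
  prm : ∀ W, Prm (oP hi) W ↔ W = V ∨ Prm (oP lo) W
  nprm : ¬ Prm (oP lo) V
  /-- the ideal of the centre becomes principal -/
  pri : ∀ W : RZ ℂ K, (∀ f ∈ i.p.O, f ∈ W.1) →
    ∃ g, Van i.p.O g ∧ g ≠ 0 ∧ ∀ f, Van i.p.O f → f / g ∈ loc (oP hi) W
  rat : Nonempty (Rf V ≃ₐ[ℂ] RatFunc Z.F)

variable (C : Th)

/-- the hermitian form -/
def hf (X : SV) (x y : C.H X) : ℂ := C.itg X (x * C.cj X y)

/-- not isotropic -/
def NI (X : SV) (x : C.H X) : Prop := hf C X x x ≠ 0

/-- classes of type `(3,1)` -/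
abbrev Om (U : PModel ℂ K) : Submodule ℂ (C.H (sv U)) := C.typ (sv U) 3 1

/-- the pull-back of a subspace to a higher model -/
abbrev up {U V : PModel ℂ K} (h : Ge U V) (N : Submodule ℂ (C.H (sv V))) :
    Submodule ℂ (C.H (sv U)) := N.map (C.pb (mor h)).toLinearMap

namespace Bw

variable (b : Bw K)

/-- `j_* π^*` -/
def t : C.H b.Z →ₗ[ℂ] C.H (sv b.hi) := C.push b.j ∘ₗ (C.pb b.π).toLinearMap

theorem t_apply (σ : C.H b.Z) : b.t C σ = C.push b.j (C.pb b.π σ) := rfl

/-- the block of the blow-up -/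
def blk : Submodule ℂ (C.H (sv b.hi)) := (C.typ b.Z 2 0).map (b.t C)

/-- the tautological class -/
def xi : C.H b.E := -C.pb b.j (C.c1 (sv b.hi) b.e)

/-- Leray-Hirsch for the exceptional divisor -/
def LH : Prop := C.LHAt b.π (b.xi C) 2

end Bw

variable (K) in
/-- **the input from Gromov-Witten theory**: a set of roots on every model and a cofinal class
`Sp` of blow-ups (any class: all blow-ups with `LH`, or special ones) -/
structure Roots where
  /-- the roots -/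
  Rt : ∀ U : PModel ℂ K, Set (C.H (sv U))
  /-- the blow-ups which are used -/
  Sp : Bw K → Prop
  ex : ∀ (V : PModel ℂ K) (O : Subalgebra ℂ K) (t : Fin 2 → K), Qt.SmZ V O 4 2 → Coords O t →
    mxf ℂ ![1, t 0, t 1] ∈ On V → ∃ b, Sp b ∧ Ge b.lo V ∧ b.i.p.O = O
  lh : ∀ b, Sp b → b.LH C
  rt : ∀ {U V : PModel ℂ K} (h : Ge U V), ∀ x ∈ Om C V, NI C (sv V) x →
    (C.pb (mor h) x ∈ Rt U ↔ x ∈ Rt V)
  bl : ∀ b, Sp b → ∀ x ∈ b.blk C, NI C (sv b.hi) x → x ∈ Rt b.hi
  pr : ∀ b, Sp b → ∀ x ∈ Om C b.hi, x ∈ Rt b.hi → NI C (sv b.hi) x →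
    x ∈ up C b.ge (Om C b.lo) ∨ x ∈ b.blk C

/-- GW: roots exist on the models of a rational field of dimension four -/
def RootStmt : Prop :=
  ∀ (K : Type) [Field K] [Algebra ℂ K], Nonempty (Hyp 4 0 K) → Nonempty (Roots K C)

/-- MODEL: a regular local ring of dimension two is the ring of a smooth subvariety of a smooth
higher model which carries finitely many given divisors (`R139.Model2Stmt`) -/
def ModStmt : Prop :=
  ∀ (F : Type) [Field F] [Algebra ℂ F] (n : ℕ) (_ : Module.Basis (Fin n) F Ω[F⁄ℂ])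
    (P : PModel ℂ F) (V : RZ ℂ F) (i : Fin (P.N + 1)) (U : Finset F) (t : Fin 2 → F)
    (T : Finset (RZ ℂ F)), (∀ x ∈ P.A i, x ∈ V.1) → (∀ u ∈ U, u ∈ V.1) →
    Coords (Qt.ring P i U V) t → (∀ W ∈ T, Dvs W ∧ ¬ Qt.Dom W.1 (Qt.ring P i U V)) →
    ∃ P' : PModel ℂ F, oP P ∈ On P' ∧ Qt.SmZ P' (Qt.ring P i U V) n 2 ∧
      (∀ W ∈ T, Prm (oP P') W) ∧ mxf ℂ ![1, t 0, t 1] ∈ On P'

/-- BLOW: blow-ups exist (an input of `Roots.ex`) -/
def BlowStmt : Prop :=
  ∀ (K : Type) [Field K] [Algebra ℂ K] (V : PModel ℂ K) (O : Subalgebra ℂ K), Qt.SmZ V O 4 2 →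
    ∃ b : Bw K, b.lo = V ∧ b.i.p.O = O ∧ b.LH C

/-- `H^{3,1}` of a smooth cubic fourfold is not zero -/
def H31Stmt : Prop :=
  ∀ G : MvPolynomial (Fin 6) ℂ, SmCub G → ∀ (K : Type) [Field K] [Algebra ℂ K] (X : Hyp 5 G K),
    Om C X.P ≠ ⊥

/-- the centre of a divisor of type `Typ` has a two-form -/
def NZStmt : Prop :=
  ∀ (K : Type) [Field K] [Algebra ℂ K] (D : ℕ) (b : Bw K), Typ D (Rf b.V) → C.typ b.Z 2 0 ≠ ⊥

/-- equal blocks have the same type -/
def MatchStmt : Prop :=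
  ∀ (K : Type) [Field K] [Algebra ℂ K] (D : ℕ) (b b' : Bw K) (U : PModel ℂ K) (h : Ge U b.hi)
    (h' : Ge U b'.hi), b.LH C → b'.LH C → up C h (b.blk C) = up C h' (b'.blk C) →
      Typ D (Rf b.V) → Typ D (Rf b'.V)

/-- a block inside `H^{3,1}` of the cubic has type `Typ D` -/
def TransStmt : Prop :=
  ∀ D : ℕ, ∃ D' : ℕ, ∀ G : MvPolynomial (Fin 6) ℂ, SmCub G → HXL D' G →
    ∀ (K : Type) [Field K] [Algebra ℂ K] (X : Hyp 5 G K), Nonempty (Hyp 4 0 K) →
      ∀ (b : Bw K) (U : PModel ℂ K) (h : Ge U b.hi) (hX : Ge U X.P), b.LH C →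
        C.typ b.Z 2 0 ≠ ⊥ → up C h (b.blk C) ≤ up C hX (Om C X.P) → Typ D (Rf b.V)

/-- formal consequences of `C.Ax` -/
structure Frm : Prop where
  /-- degree formula for birational morphisms -/
  deg : ∀ {X Y : SV} (μ : Hom X Y), Bim μ → ∀ a, C.itg X (C.pb μ a) = C.itg Y a
  /-- a morphism which is not onto kills the classes of type `(dim, q)` -/
  van : ∀ {X Y : SV} (g : Hom X Y), ¬ Function.Surjective g.map →
    ∀ q, ∀ a ∈ C.typ Y Y.dim q, C.pb g a = 0
  /-- a contracted divisor kills the classes of type `(dim - 1, q)` -/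
  exc : ∀ {K : Type} [Field K] [Algebra ℂ K] {Q : SV} {V : PModel ℂ K} (g : Hom Q (sv V))
    (W : RZ ℂ K), Alg g W → Dvs W → ¬ Prm (oP V) W →
      ∀ p q, p + 1 = BD.dim ℂ K → ∀ a ∈ C.typ (sv V) p q, C.pb g a = 0
  /-- base change of the Gysin map along an arbitrary morphism -/
  bc : ∀ {D X B : SV} (j : Hom D X) (a : BD ℂ X.F) (u : Hom B X), IsDv j a → ∀ x : C.H D,
    (∀ (G : SV) (v : Hom G B) (w : Hom G D), (Mor.comp j w).map = (Mor.comp u v).map →
      C.pb w x = 0) → C.pb u (C.push j x) = 0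
  /-- a class which dies on all contracted divisors is a pull-back -/
  fact : ∀ {K : Type} [Field K] [Algebra ℂ K] {U V : PModel ℂ K} (h : Ge U V) (x : C.H (sv U)),
    (∀ (W : RZ ℂ K) (Q : SV) (u : Hom Q (sv U)), Prm (oP U) W → ¬ Prm (oP V) W → Alg u W →
      C.pb u x = 0) → ∃ y, x = C.pb (mor h) y

end Crest.Agent.X262.Chn
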