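import Crest.Agent.X262.Chn.GeoI
import Crest.Agent.X262.Int23.Hl
import Crest.Agent.X262.Form88.Geo

/-!
# Row 262, CHN (helper49): the hermitian form and the block of a blow-up

* `hf_add_left`, `hf_add_right`, `hf_smul_left`, `hf_smul_right`, `hf_symm`, `hf_pb`;
* `exists_hf_ne`, `exists_ni_of`, `exists_ni`;
* `Bw.t_mem`, `Bw.pb_t`, `Bw.orth`, `Bw.hf_t`, `Bw.span`, `Bw.junk`;
* `mem_up` : a class of type `(3,1)` which dies on the contracted divisors;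
* `om_eq_bot` : projective space.
-/

set_option autoImplicit false

noncomputable section

namespace Crest.Agent.X262.Chn

open Crest.Agent.X277 Crest.Agent.X277.Lef Crest.Agent.X277.AN.G1 Crest.Agent.X277.BD
open Crest.Agent.X277.BD.Br (On oP oP_mem)
open Crest.Agent.X277.Pst (Prm Dvs)
open Crest.Agent.X262.Coh Crest.Agent.X262.Int23

variable {C : Th} {X Y : SV} {K : Type} [Field K] [Algebra ℂ K] {U V : PModel ℂ K}

theorem hf_add_left (x x' y : C.H X) : hf C X (x + x') y = hf C X x y + hf C X x' y := by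
  simp only [hf, add_mul, map_add]

theorem hf_add_right (x y y' : C.H X) : hf C X x (y + y') = hf C X x y + hf C X x y' := by
  simp only [hf, mul_add, map_add]

theorem hf_smul_left (c : ℂ) (x y : C.H X) : hf C X (c • x) y = c * hf C X x y := by
  simp only [hf, smul_mul_assoc, map_smul, smul_eq_mul]

theorem NI.ne_zero {x : C.H X} (h : NI C X x) : x ≠ 0 := fun h0 => h (by simp [hf, h0])

variable (A : C.Ax)
include A

theorem cj_smul (c : ℂ) (x : C.H X) : C.cj X (c • x) = starRingEnd ℂ c • C.cj X x := by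
  rw [Algebra.smul_def, map_mul, A.man.cj_alg, Algebra.smul_def]

theorem hf_smul_right (c : ℂ) (x y : C.H X) :
    hf C X x (c • y) = starRingEnd ℂ c * hf C X x y := by
  simp only [hf, cj_smul A, mul_smul_comm, map_smul, smul_eq_mul]

theorem hf_symm (x y : C.H X) : hf C X y x = starRingEnd ℂ (hf C X x y) := by
  rw [hf, hf, ← A.man.cj_itg, map_mul (C.cj X), A.man.cj_cj, mul_comm]

theorem hf_pb {μ : Hom X Y} (h : Bim μ) (x y : C.H Y) :
    hf C X (C.pb μ x) (C.pb μ y) = hf C Y x y := by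
  rw [hf, ← A.man.cj_pb, ← map_mul, itg_bim A h, hf]

theorem ni_pb {μ : Hom X Y} (h : Bim μ) {x : C.H Y} : NI C X (C.pb μ x) ↔ NI C Y x := by
  rw [NI, hf_pb A h, NI]

/-- the form is not degenerate on the classes of type `(p, q)`, `p + q = dim` -/
theorem exists_hf_ne {p q : ℕ} (h : p + q = X.dim) {x : C.H X} (hx : x ∈ C.typ X p q)
    (h0 : x ≠ 0) : ∃ y ∈ C.typ X p q, hf C X x y ≠ 0 := by
  by_contra hc
  push Not at hc
  refine h0 (eq_zero_of_itg A (typ_ind A (fun i j y hy => ?_)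
    fun y z hy hz => by rw [mul_add, map_add, hy, hz, add_zero]))
  by_cases h1 : i = q ∧ j = p
  · have h2 := hc _ (h1.1 ▸ h1.2 ▸ A.typ.cj X y hy)
    rwa [hf, A.man.cj_cj] at h2
  · exact itg_typ A (by omega) (A.typ.mul X hx hy)

/-- polarisation -/
theorem exists_ni_of {N : Submodule ℂ (C.H X)} {x y : C.H X} (hx : x ∈ N) (hy : y ∈ N)
    (h : hf C X x y ≠ 0) : ∃ z ∈ N, NI C X z := by
  by_contra hc
  simp only [NI, not_exists, not_and, not_not] at hc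
  have h1 := hc _ (N.add_mem hx hy)
  have h2 := hc _ (N.add_mem hx (N.smul_mem Complex.I hy))
  rw [hf_add_left, hf_add_right, hf_add_right, hc x hx] at h1 h2
  rw [hc y hy] at h1
  rw [hc _ (N.smul_mem Complex.I hy), hf_smul_left, hf_smul_right A, Complex.conj_I] at h2
  refine h (mul_left_cancel₀ (mul_ne_zero two_ne_zero Complex.I_ne_zero) ?_)
  linear_combination Complex.I * h1 - h2

theorem exists_ni {p q : ℕ} (h : p + q = X.dim) (h0 : C.typ X p q ≠ ⊥) :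
    ∃ z ∈ C.typ X p q, NI C X z := by
  obtain ⟨x, hx, h1⟩ := (Submodule.ne_bot_iff _).1 h0
  obtain ⟨y, hy, h2⟩ := exists_hf_ne A h hx h1
  exact exists_ni_of A hx hy h2

theorem pb_mor (h : Ge U V) {W : PModel ℂ K} (h' : Ge V W) (x : C.H (sv W)) :
    C.pb (mor h) (C.pb (mor h') x) = C.pb (mor (h.trans h')) x := by
  rw [← A.man.pb_comp, A.man.pb_congr _ _ (mor_comp h h')]

theorem up_le (h : Ge U V) : up C h (Om C V) ≤ Om C U := by
  rintro _ ⟨x, hx, rfl⟩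
  exact A.typ.pb _ x hx

/-- a class of type `(3,1)` which dies on the contracted divisors -/
theorem mem_up (F : Frm C) (h : Ge U V) {x : C.H (sv U)} (hx : x ∈ Om C U)
    (h0 : ∀ (W : RZ ℂ K) (Q : SV) (u : Hom Q (sv U)), Prm (oP U) W → ¬ Prm (oP V) W → Alg u W →
      C.pb u x = 0) : x ∈ up C h (Om C V) := by
  obtain ⟨y, rfl⟩ := F.fact h x h0
  refine ⟨y, ?_, rfl⟩
  rw [← push_pb_bim A (bim_mor h) y]
  exact push_typ A (mor h) rfl rfl hx

/-- projective space -/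
theorem om_eq_bot (Y : Top.Hyp 4 0 K) : Om C Y.P = ⊥ := by
  refine (Submodule.eq_bot_iff _).2 fun x hx => ?_
  have h1 := A.typ.le (sv Y.P) (p := 3) (q := 1) (k := 2) rfl hx
  rw [A.pn (sv Y.P) (fun m q hq h => zero_dvd_iff.1 ((Y.ker m q hq).1 h)) 2,
    Submodule.mem_span_singleton] at h1
  obtain ⟨c, rfl⟩ := h1
  have h2 := A.typ.c1 (sv Y.P) _ oP_mem
  have h3 : c • C.hc (sv Y.P) ^ 2 ∈ C.typ (sv Y.P) 2 2 :=
    Submodule.smul_mem _ _ (sq (C.hc (sv Y.P)) ▸ A.typ.mul _ h2 h2)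
  exact Submodule.disjoint_def.1 ((A.typ.int (sv Y.P)).submodule_iSupIndep.pairwiseDisjoint
    (show ((3, 1) : ℕ × ℕ) ≠ (2, 2) by decide)) _ hx h3

namespace Bw

variable (b : Bw K)

theorem xi_mem : b.xi C ∈ C.typ b.E 1 1 := neg_mem (A.typ.pb _ _ (A.typ.c1 _ _ b.dv.on))

theorem t_mem {σ : C.H b.Z} (h : σ ∈ C.typ b.Z 2 0) : b.t C σ ∈ Om C b.hi :=
  push_typ A b.j (by rw [b.dimE]; exact congrArg (2 + ·) b.dimK)
    (by rw [b.dimE]; exact congrArg (0 + ·) b.dimK) (A.typ.pb _ _ h)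

theorem blk_le : b.blk C ≤ Om C b.hi := by
  rintro _ ⟨σ, h, rfl⟩
  exact b.t_mem A h

theorem pb_t (σ : C.H b.Z) : C.pb b.j (b.t C σ) = -(b.xi C * C.pb b.π σ) := by
  rw [t_apply, A.bc2 b.j b.e b.dv, xi, neg_mul, neg_neg]

theorem cj_t (σ : C.H b.Z) : C.cj _ (b.t C σ) = b.t C (C.cj _ σ) := by
  rw [t_apply, t_apply, A.man.cj_pb, push_cj A]

theorem pb_sq (x : C.H (sv b.lo)) : C.pb b.j (C.pb (mor b.ge) x) = C.pb b.π (C.pb b.i x) := by
  rw [← A.man.pb_comp, ← A.man.pb_comp, A.man.pb_congr _ _ b.comm]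

theorem pb_om {x : C.H (sv b.lo)} (hx : x ∈ Om C b.lo) : C.pb b.j (C.pb (mor b.ge) x) = 0 := by
  have h1 := A.typ.pb b.i x hx
  rw [A.typ.gt b.Z 1 (by rw [b.dimZ]; decide), Submodule.mem_bot] at h1
  rw [b.pb_sq A, h1, map_zero]

theorem orth {x : C.H (sv b.lo)} (hx : x ∈ Om C b.lo) (σ : C.H b.Z) :
    hf C _ (C.pb (mor b.ge) x) (b.t C σ) = 0 := by
  rw [hf, b.cj_t A, mul_comm, t_apply, push_adj A, b.pb_om A hx, mul_zero, map_zero]

variable {b}

omit A in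
theorem LH.fib' (h : b.LH C) (y : C.H b.Z) : C.itg b.E (b.xi C * C.pb b.π y) = C.itg b.Z y := by
  simpa using h.fib y

theorem itg_t (h : b.LH C) (σ σ' : C.H b.Z) :
    C.itg _ (b.t C σ * b.t C σ') = -C.itg _ (σ * σ') := by
  rw [t_apply, push_adj A, b.pb_t A, mul_neg, map_neg, mul_left_comm, ← map_mul, h.fib']

theorem hf_t (h : b.LH C) (σ σ' : C.H b.Z) : hf C _ (b.t C σ) (b.t C σ') = -hf C _ σ σ' := by
  rw [hf, b.cj_t A, itg_t A h, hf]

theorem exists_ni_blk (h : b.LH C) (h0 : C.typ b.Z 2 0 ≠ ⊥) : ∃ x ∈ b.blk C, NI C _ x := by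
  obtain ⟨σ, h1, h2⟩ := exists_ni A (by rw [b.dimZ]) h0
  exact ⟨_, ⟨σ, h1, rfl⟩, by rwa [NI, hf_t A h, neg_ne_zero]⟩

theorem pb_j_eq (h : b.LH C) {x : C.H (sv b.hi)} (hx : x ∈ Om C b.hi) :
    C.push b.π (C.pb b.j x) ∈ C.typ b.Z 2 0 ∧
      C.pb b.j x = b.xi C * C.pb b.π (C.push b.π (C.pb b.j x)) := by
  have h1 := A.typ.pb b.j x hx
  have h2 : C.push b.π (C.pb b.j x) ∈ C.typ b.Z 2 0 :=
    push_typ A b.π (by rw [b.dimE, b.dimZ]) (by rw [b.dimE, b.dimZ]) h1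
  have h3 := sub_mem h1 (A.typ.mul _ (b.xi_mem A) (A.typ.pb b.π _ h2))
  refine ⟨h2, sub_eq_zero.1 (eq_zero_of_dg A (i := 2) (j := 1) b.dimE.symm
    (A.typ.le _ rfl h3) fun v hv => ?_)⟩
  obtain ⟨y, hy, rfl⟩ := h.span 1 (by decide) v hv
  obtain ⟨c, hc⟩ := A.man.dg_zero _ _ (hy 0)
  have h4 := A.typ.mul _ h3 (b.xi_mem A)
  rw [A.typ.gt b.E _ (by rw [b.dimE]; decide), Submodule.mem_bot] at h4
  rw [Finset.sum_range_succ, Finset.sum_range_one, hc, AlgHom.commutes, mul_add, Nat.sub_zero,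
    pow_one, mul_left_comm, h4, mul_zero, zero_add, Nat.sub_self, pow_zero, mul_one, sub_mul,
    map_sub, mul_assoc, ← map_mul, h.fib', push_adj A, sub_self]

/-- `H^{3,1}` of the blow-up -/
theorem span (F : Frm C) (h : b.LH C) {x : C.H (sv b.hi)} (hx : x ∈ Om C b.hi) :
    ∃ x₀ ∈ Om C b.lo, ∃ c ∈ b.blk C, x = C.pb (mor b.ge) x₀ + c := by
  obtain ⟨h1, h2⟩ := pb_j_eq A h hx
  obtain ⟨x₀, h3, h4⟩ := mem_up A F b.ge (add_mem hx (b.t_mem A h1)) fun W Q u h3 h4 hu => by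
    obtain rfl : W = b.V := ((b.prm W).1 h3).resolve_right h4
    obtain ⟨w, hw⟩ := Form88.exists_lift b.dv.emb u fun q =>
      Form88.mem_range b.j fun f hf => (b.along f).2 ((hu f).1 (u.mem_O hf))
    rw [← A.man.pb_congr _ _ hw, A.man.pb_comp, map_add (C.pb b.j), b.pb_t A, ← h2,
      add_neg_cancel, map_zero]
  exact ⟨x₀, h3, _, neg_mem ⟨_, h1, rfl⟩, eq_add_neg_of_add_eq h4.symm⟩

/-- a divisor which does not contain the centre does not see the block -/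
theorem junk (F : Frm C) {W : RZ ℂ K} (hW : ¬ ∀ f ∈ b.i.p.O, f ∈ W.1) {Q : SV}
    {u : Hom Q (sv b.hi)} (hu : Alg u W) {c : C.H (sv b.hi)} (hc : c ∈ b.blk C) :
    C.pb u c = 0 := by
  obtain ⟨σ, hσ, rfl⟩ := hc
  refine F.bc b.j b.e u b.dv (C.pb b.π σ) fun G v w hw => ?_
  rw [← A.man.pb_comp]
  refine F.van _ (fun hs => hW (b.le_of_pts fun z f hf => ?_)) 0 σ (by rwa [b.dimZ])
  obtain ⟨g, rfl⟩ := hs z
  have h1 := congrFun b.comm (w.map g)
  have h2 := congrFun hw g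
  simp only [Mor.comp_map] at h1 h2 hf
  rw [← h1, h2, ← Mor.comp_map] at hf
  exact (hu.comp b.ge f).1 ((Mor.comp (mor b.ge) u).mem_O hf)

end Bw

end Crest.Agent.X262.Chn
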