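import Mathlib

/-!
# Row 262, CHN (helper49): the abstract count of blocks

`T` is a complex vector space with a biadditive form `β` (bilinear or sesquilinear) whose
orthogonality is symmetric, `Rt` a set of "roots", `D` the set of prime divisors, `Kr F` the kernel
of the restriction to the divisor `F`.  For a set `S` of divisors `TS S` is the set of vectors which
restrict to zero on all divisors outside `S`.

* `Amb.Dec S₀ A B` : `TS (S₀ ∪ A)` is the orthogonal sum of `TS S₀` and of the blocks `B E`, `E ∈ A`;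
* `Amb.StepAt`     : the data of one blow-up; `Dec.insert` : one step;
* `Amb.dec_ext`    : all steps along a set closed under predecessors;
* `Amb.count`      : the count.
-/

set_option autoImplicit false

namespace Crest.Agent.X262.Chn

/-- the ambient data -/
structure Amb (T D : Type*) [AddCommGroup T] [Module ℂ T] where
  /-- the form -/
  β : T →+ T →+ ℂ
  symm : ∀ x y, β x y = 0 → β y x = 0
  /-- the kernel of the restriction to a divisor -/
  Kr : D → Submodule ℂ T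
  /-- the roots -/
  Rt : Set T

namespace Amb

variable {T D : Type*} [AddCommGroup T] [Module ℂ T] (a : Amb T D)

/-- vectors which restrict to zero on all divisors outside `S` -/
def TS (S : Set D) : Submodule ℂ T := ⨅ F, ⨅ _ : F ∉ S, a.Kr F

/-- orthogonal subspaces -/
def Orth (M N : Submodule ℂ T) : Prop := ∀ x ∈ M, ∀ y ∈ N, a.β x y = 0

/-- not isotropic -/
def NI (x : T) : Prop := a.β x x ≠ 0

variable {a}

theorem mem_TS {S : Set D} {x : T} : x ∈ a.TS S ↔ ∀ F, F ∉ S → x ∈ a.Kr F := by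
  simp [TS, Submodule.mem_iInf]

theorem TS_mono {S S' : Set D} (h : S ⊆ S') : a.TS S ≤ a.TS S' := fun _ hx =>
  mem_TS.2 fun F hF => mem_TS.1 hx F fun h1 => hF (h h1)

theorem Orth.symm {M N : Submodule ℂ T} (h : a.Orth M N) : a.Orth N M := fun x hx y hy =>
  a.symm _ _ (h y hy x hx)

theorem Orth.mono {M N M' N' : Submodule ℂ T} (h : a.Orth M N) (h1 : M' ≤ M) (h2 : N' ≤ N) :
    a.Orth M' N' := fun x hx y hy => h x (h1 hx) y (h2 hy)

theorem β_nsmul (n : ℕ) (x y : T) : a.β (n • x) y = n * a.β x y := by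
  rw [map_nsmul, AddMonoidHom.nsmul_apply, nsmul_eq_mul]

theorem β_nsmul' (n : ℕ) (x y : T) : a.β x (n • y) = n * a.β x y := by
  rw [map_nsmul, nsmul_eq_mul]

/-- on a line through a non isotropic direction there is a non isotropic point -/
theorem exists_ni {x b : T} (hb : a.NI b) : ∃ n : ℕ, 0 < n ∧ a.NI (x + n • b) := by
  by_contra hcon
  push Not at hcon
  have key : ∀ n : ℕ, 0 < n →
      a.β x x + n * (a.β x b + a.β b x) + n ^ 2 * a.β b b = 0 := by
    intro n hn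
    have h := hcon n hn
    unfold NI at h
    rw [not_not, map_add, map_add, AddMonoidHom.add_apply, AddMonoidHom.add_apply, β_nsmul,
      β_nsmul', β_nsmul, β_nsmul'] at h
    linear_combination h
  have h1 := key 1 (by norm_num)
  have h2 := key 2 (by norm_num)
  have h3 := key 3 (by norm_num)
  push_cast at h1 h2 h3
  exact hb (by linear_combination (h1 - 2 * h2 + h3) / 2)

theorem mem_of_add_nsmul {M : Submodule ℂ T} {x b : T} {n : ℕ} (hb : b ∈ M)
    (h : x + n • b ∈ M) : x ∈ M := by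
  have := M.sub_mem h (nsmul_mem hb n)
  rwa [add_sub_cancel_right] at this

/-- a subspace whose non isotropic vectors lie in mutually orthogonal subspaces lies in one -/
theorem le_of_cover {ι : Type*} {M : ι → Submodule ℂ T}
    (hM : ∀ i j, i ≠ j → a.Orth (M i) (M j)) {B : Submodule ℂ T}
    (hB : ∀ x ∈ B, a.NI x → ∃ i, x ∈ M i) {b : T} (hb : b ∈ B) (hbn : a.NI b) {i : ι}
    (hi : b ∈ M i) : B ≤ M i := by
  have key : ∀ x ∈ B, a.NI x → x ∈ M i := by
    intro x hx hxn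
    obtain ⟨j, hj⟩ := hB x hx hxn
    by_cases hij : j = i
    · exact hij ▸ hj
    obtain ⟨n, hn, h⟩ := exists_ni (x := x) hbn
    obtain ⟨l, hl⟩ := hB _ (B.add_mem hx (nsmul_mem hb n)) h
    by_cases hli : l = i
    · exact mem_of_add_nsmul hi (hli ▸ hl)
    exfalso
    have h1 := hM l i hli _ hl b hi
    rw [map_add, AddMonoidHom.add_apply, hM j i hij x hj b hi, β_nsmul, zero_add] at h1
    exact mul_ne_zero (Nat.cast_ne_zero.2 hn.ne') hbn h1
  intro x hx
  obtain ⟨n, -, h⟩ := exists_ni (x := x) hbn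
  exact mem_of_add_nsmul hi (key _ (B.add_mem hx (nsmul_mem hb n)) h)

variable (a) in
/-- `TS (S₀ ∪ A)` is the orthogonal sum of `TS S₀` and of the blocks `B E`, `E ∈ A` -/
structure Dec (S₀ : Set D) (A : Finset D) (B : D → Submodule ℂ T) : Prop where
  le : ∀ E ∈ A, B E ≤ a.TS (S₀ ∪ A)
  orth0 : ∀ E ∈ A, a.Orth (a.TS S₀) (B E)
  orth : ∀ E ∈ A, ∀ E' ∈ A, E ≠ E' → a.Orth (B E) (B E')
  sum : ∀ x ∈ a.TS (S₀ ∪ A), ∃ x₀ ∈ a.TS S₀, ∃ b : D → T, (∀ E ∈ A, b E ∈ B E) ∧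
    x = x₀ + ∑ E ∈ A, b E
  root : ∀ E ∈ A, ∀ x ∈ B E, a.NI x → x ∈ a.Rt
  sep : ∀ x ∈ a.Rt, a.NI x → x ∈ a.TS (S₀ ∪ A) → x ∈ a.TS S₀ ∨ ∃ E ∈ A, x ∈ B E
  ker : ∀ E ∈ A, ∀ x ∈ B E, x ∈ a.Kr E → ¬ a.NI x

theorem dec_empty (S₀ : Set D) (B : D → Submodule ℂ T) : a.Dec S₀ ∅ B where
  le := by simp
  orth0 := by simp
  orth := by simp
  sum x hx := ⟨x, by simpa using hx, fun _ => 0, by simp, by simp⟩
  root := by simp
  sep x _ _ hx := Or.inl (by simpa using hx)
  ker := by simp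

variable (a) in
/-- The blow-up which creates `E`: `DV` is the set of divisors of the model which is blown up,
`B` the new block, the divisors of `DV` outside `J` do not see the block. -/
structure StepAt (DV J : Set D) (E : D) (B : Submodule ℂ T) : Prop where
  notMem : E ∉ DV
  le : B ≤ a.TS (insert E DV)
  orth : a.Orth (a.TS DV) B
  sum : ∀ x ∈ a.TS (insert E DV), ∃ x₀ ∈ a.TS DV, ∃ b ∈ B, x = x₀ + b
  root : ∀ x ∈ B, a.NI x → x ∈ a.Rt
  sep : ∀ x ∈ a.Rt, a.NI x → x ∈ a.TS (insert E DV) → x ∈ a.TS DV ∨ x ∈ B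
  junk : ∀ F ∈ DV, F ∉ J → B ≤ a.Kr F

/-- a divisor on which everything restricts to zero -/
theorem stepAt_bot {E : D} (h : a.Kr E = ⊤) (J : Set D) : a.StepAt {F | F ≠ E} J E ⊥ := by
  have h1 : a.TS {F | F ≠ E} = ⊤ := by
    refine eq_top_iff.2 fun x _ => mem_TS.2 fun F hF => ?_
    have : F = E := by simpa using hF
    rw [this, h]
    trivial
  refine ⟨by simp, bot_le, fun x _ y hy => ?_, fun x _ => ⟨x, by rw [h1]; trivial, 0, zero_mem _,
    (add_zero x).symm⟩, fun x hx hn => ?_, fun x _ _ _ => Or.inl (by rw [h1]; trivial),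
    fun _ _ _ => bot_le⟩
  · rw [(Submodule.mem_bot ℂ).1 hy, map_zero]
  · exact absurd (by rw [(Submodule.mem_bot ℂ).1 hx, map_zero]) hn

/-- one step -/
theorem Dec.insert [DecidableEq D] {S₀ : Set D} {A : Finset D} {B : D → Submodule ℂ T}
    (h : a.Dec S₀ A B) {DV J : Set D} {E : D} (st : a.StepAt DV J E (B E))
    (h1 : S₀ ∪ A ⊆ DV) (h2 : J ⊆ S₀ ∪ A) : a.Dec S₀ (insert E A) B := by
  have hEA : E ∉ A := fun hE => st.notMem (h1 (Or.inr hE))
  have hS : S₀ ∪ (↑(Insert.insert E A) : Set D) = Insert.insert E (S₀ ∪ A) := by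
    rw [Finset.coe_insert, Set.union_insert]
  have hle : a.TS (S₀ ∪ A) ≤ a.TS (Insert.insert E (S₀ ∪ A)) := TS_mono (Set.subset_insert _ _)
  have hleV : a.TS (S₀ ∪ A) ≤ a.TS DV := TS_mono h1
  have hup : a.TS (Insert.insert E (S₀ ∪ A)) ≤ a.TS (Insert.insert E DV) :=
    TS_mono (Set.insert_subset_insert h1)
  have hB : B E ≤ a.TS (Insert.insert E (S₀ ∪ A)) := by
    refine fun x hx => mem_TS.2 fun F hF => ?_
    by_cases hFV : F ∈ DV
    · exact st.junk F hFV (fun hJ => hF (Or.inr (h2 hJ))) hx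
    · exact mem_TS.1 (st.le hx) F fun h3 => h3.elim (fun h4 => hF (Or.inl h4)) hFV
  have hdown : ∀ x ∈ a.TS (Insert.insert E (S₀ ∪ A)), x ∈ a.TS DV → x ∈ a.TS (S₀ ∪ A) := by
    refine fun x hx hx' => mem_TS.2 fun F hF => ?_
    by_cases hFE : F = E
    · exact mem_TS.1 hx' F (hFE ▸ st.notMem)
    · exact mem_TS.1 hx F fun h3 => h3.elim hFE hF
  refine ⟨fun F hF => ?_, fun F hF => ?_, fun F hF F' hF' hne => ?_, fun x hx => ?_,
    fun F hF => ?_, fun x hx hn hxS => ?_, fun F hF => ?_⟩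
  · rw [hS]
    rcases Finset.mem_insert.1 hF with rfl | hF
    · exact hB
    · exact (h.le F hF).trans hle
  · rcases Finset.mem_insert.1 hF with rfl | hF
    · exact st.orth.mono ((TS_mono Set.subset_union_left).trans hleV) le_rfl
    · exact h.orth0 F hF
  · rcases Finset.mem_insert.1 hF with h3 | h3 <;> rcases Finset.mem_insert.1 hF' with h4 | h4
    · exact absurd (h3.trans h4.symm) hne
    · rw [h3]
      exact (st.orth.mono ((h.le F' h4).trans hleV) le_rfl).symm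
    · rw [h4]
      exact st.orth.mono ((h.le F h3).trans hleV) le_rfl
    · exact h.orth F h3 F' h4 hne
  · rw [hS] at hx
    obtain ⟨x₁, hx₁, c, hc, rfl⟩ := st.sum x (hup hx)
    have h3 : x₁ ∈ a.TS (Insert.insert E (S₀ ∪ A)) := by
      simpa using Submodule.sub_mem _ hx (hB hc)
    obtain ⟨x₀, hx₀, b, hb, rfl⟩ := h.sum x₁ (hdown x₁ h3 hx₁)
    refine ⟨x₀, hx₀, Function.update b E c, fun F hF => ?_, ?_⟩
    · rcases Finset.mem_insert.1 hF with rfl | hF
      · rwa [Function.update_self]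
      · rw [Function.update_of_ne fun h4 : F = E => hEA (h4 ▸ hF)]
        exact hb F hF
    · rw [Finset.sum_insert hEA, Function.update_self, add_assoc, add_comm c]
      congr 2
      exact Finset.sum_congr rfl fun F hF =>
        (Function.update_of_ne (fun h4 : F = E => hEA (h4 ▸ hF)) _ _).symm
  · rcases Finset.mem_insert.1 hF with rfl | hF
    · exact st.root
    · exact h.root F hF
  · rw [hS] at hxS
    rcases st.sep x hx hn (hup hxS) with h3 | h3
    · rcases h.sep x hx hn (hdown x hxS h3) with h4 | ⟨F, hF, h4⟩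
      · exact Or.inl h4
      · exact Or.inr ⟨F, Finset.mem_insert_of_mem hF, h4⟩
    · exact Or.inr ⟨E, Finset.mem_insert_self _ _, h3⟩
  · rcases Finset.mem_insert.1 hF with rfl | hF
    · intro x hx hK hn
      refine hn (st.orth x (mem_TS.2 fun G hG => ?_) x hx)
      by_cases hGF : G = F
      · exact hGF ▸ hK
      · exact mem_TS.1 (st.le hx) G fun h3 => h3.elim hGF hG
    · exact h.ker F hF

/-- a finite set closed under predecessors -/
def Clo (Pred : D → Set D) (A : Finset D) : Prop := ∀ E ∈ A, Pred E ⊆ A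

variable (a) in
/-- all the blow-ups for the divisors of `A` over the model with divisors `S₀` -/
def Steps (S₀ : Set D) (Pred : D → Set D) (dep : D → ℕ) (A : Finset D)
    (B : D → Submodule ℂ T) : Prop :=
  ∀ E ∈ A, ∃ DV : Set D, a.StepAt DV (S₀ ∪ Pred E) E (B E) ∧ S₀ ⊆ DV ∧
    ∀ E' ∈ A, E' ≠ E → dep E' ≤ dep E → E' ∈ DV

/-- the decomposition for every closed subset -/
theorem Steps.dec {S₀ : Set D} {Pred : D → Set D} {dep : D → ℕ} {A : Finset D}
    {B : D → Submodule ℂ T} (hs : a.Steps S₀ Pred dep A B)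
    (hdep : ∀ E ∈ A, ∀ E' ∈ Pred E, dep E' < dep E) (A' : Finset D) (hA : A' ⊆ A)
    (hc : Clo Pred A') : a.Dec S₀ A' B := by
  classical
  induction A' using Finset.induction_on_max_value dep with
  | empty => exact dec_empty S₀ B
  | insert E A' hE hmax ih =>
    have hnot : ∀ E' ∈ Insert.insert E A', E ∉ Pred E' := by
      intro E' hE' h
      have h1 := hdep E' (hA hE') E h
      rcases Finset.mem_insert.1 hE' with rfl | h2
      · exact lt_irrefl _ h1
      · exact absurd (hmax E' h2) (not_le.2 h1)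
    have hsub : ∀ E' ∈ Insert.insert E A', Pred E' ⊆ A' := by
      intro E' hE' F hF
      rcases Finset.mem_insert.1 (Finset.mem_coe.1 (hc E' hE' hF)) with rfl | h
      · exact absurd hF (hnot E' hE')
      · exact h
    obtain ⟨DV, st, h0, h1⟩ := hs E (hA (Finset.mem_insert_self _ _))
    refine (ih (fun F hF => hA (Finset.mem_insert_of_mem hF))
      fun F hF => hsub F (Finset.mem_insert_of_mem hF)).insert st ?_ ?_
    · rintro F (hF | hF)
      · exact h0 hF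
      · exact h1 F (hA (Finset.mem_insert_of_mem hF)) (fun h => hE (h ▸ hF)) (hmax F hF)
    · exact Set.union_subset_union_right _ (hsub E (Finset.mem_insert_self _ _))

/-- every finite set lies in a closed finite set -/
theorem exists_clo {Ex : Set D} {Pred : D → Finset D} {dep : D → ℕ}
    (h : ∀ E ∈ Ex, ∀ E' ∈ Pred E, E' ∈ Ex ∧ dep E' < dep E) (A : Finset D) (hA : ↑A ⊆ Ex) :
    ∃ A' : Finset D, A ⊆ A' ∧ ↑A' ⊆ Ex ∧ Clo (fun E => ↑(Pred E)) A' := by
  classical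
  have one : ∀ (n : ℕ) (E : D), E ∈ Ex → dep E = n →
      ∃ A' : Finset D, E ∈ A' ∧ ↑A' ⊆ Ex ∧ Clo (fun E => ↑(Pred E)) A' := by
    intro n
    induction n using Nat.strong_induction_on with
    | _ n ih =>
      intro E hE hn
      choose! C h1 h2 h3 using fun E' (hE' : E' ∈ Pred E) =>
        ih (dep E') (hn ▸ (h E hE E' hE').2) E' (h E hE E' hE').1 rfl
      refine ⟨Insert.insert E ((Pred E).biUnion C), Finset.mem_insert_self _ _, ?_, ?_⟩
      · intro F hF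
        rcases Finset.mem_insert.1 (Finset.mem_coe.1 hF) with rfl | hF
        · exact hE
        · obtain ⟨E', hE', hF⟩ := Finset.mem_biUnion.1 hF
          exact h2 E' hE' hF
      · intro F hF G hG
        refine Finset.mem_coe.2 (Finset.mem_insert_of_mem (Finset.mem_biUnion.2 ?_))
        rcases Finset.mem_insert.1 hF with rfl | hF
        · exact ⟨G, hG, h1 G hG⟩
        · obtain ⟨E', hE', hF⟩ := Finset.mem_biUnion.1 hF
          exact ⟨E', hE', h3 E' hE' F hF hG⟩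
  choose! C h1 h2 h3 using fun E (hE : E ∈ A) => one _ E (hA hE) rfl
  refine ⟨A.biUnion C, fun E hE => Finset.mem_biUnion.2 ⟨E, hE, h1 E hE⟩, fun F hF => ?_,
    fun F hF G hG => ?_⟩
  · obtain ⟨E, hE, hF⟩ := Finset.mem_biUnion.1 (Finset.mem_coe.1 hF)
    exact h2 E hE hF
  · obtain ⟨E, hE, hF⟩ := Finset.mem_biUnion.1 hF
    exact Finset.mem_coe.2 (Finset.mem_biUnion.2 ⟨E, hE, h3 E hE F hF hG⟩)

/-- a space of roots lies in one summand -/
theorem Dec.le_or {S₀ : Set D} {A : Finset D} {B : D → Submodule ℂ T} (h : a.Dec S₀ A B)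
    {M : Submodule ℂ T} (hM : M ≤ a.TS (S₀ ∪ A)) (hr : ∀ x ∈ M, a.NI x → x ∈ a.Rt) {b : T}
    (hb : b ∈ M) (hbn : a.NI b) : M ≤ a.TS S₀ ∨ ∃ E ∈ A, M ≤ B E := by
  let N : Option A → Submodule ℂ T := fun o => o.elim (a.TS S₀) fun E => B E
  have hN : ∀ i j, i ≠ j → a.Orth (N i) (N j) := by
    rintro (_ | E) (_ | E') hne
    · exact absurd rfl hne
    · exact h.orth0 E' E'.2
    · exact (h.orth0 E E.2).symm
    · exact h.orth E E.2 E' E'.2 fun h1 => hne (by rw [Subtype.ext h1])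
  have hc : ∀ x ∈ M, a.NI x → ∃ i, x ∈ N i := by
    intro x hx hn
    rcases h.sep x (hr x hx hn) hn (hM hx) with h1 | ⟨E, hE, h1⟩
    · exact ⟨none, h1⟩
    · exact ⟨some ⟨E, hE⟩, h1⟩
  obtain ⟨i, hi⟩ := hc b hb hbn
  have := le_of_cover hN hc hb hbn hi
  rcases i with _ | E
  · exact Or.inl this
  · exact Or.inr ⟨E, E.2, this⟩

/-- a non isotropic vector of a sum of orthogonal blocks has a non isotropic component -/
theorem Dec.exists_comp {S₀ : Set D} {A : Finset D} {B : D → Submodule ℂ T} (h : a.Dec S₀ A B)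
    (h0 : a.TS S₀ = ⊥) {x : T} (hx : x ∈ a.TS (S₀ ∪ A)) (hn : a.NI x) :
    ∃ E ∈ A, ∃ b ∈ B E, a.NI b ∧ a.β x b ≠ 0 := by
  obtain ⟨x₀, hx₀, b, hb, rfl⟩ := h.sum x hx
  rw [h0, Submodule.mem_bot] at hx₀
  rw [hx₀, zero_add] at hn ⊢
  have key : ∀ E ∈ A, a.β (∑ E ∈ A, b E) (b E) = a.β (b E) (b E) := by
    intro E hE
    rw [map_sum, AddMonoidHom.finsetSum_apply]
    exact Finset.sum_eq_single_of_mem E hE fun F hF hne =>
      h.orth F hF E hE hne _ (hb F hF) _ (hb E hE)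
  by_contra hcon
  refine hn ?_
  rw [map_sum (a.β _)]
  refine Finset.sum_eq_zero fun E hE => ?_
  by_contra h1
  exact hcon ⟨E, hE, b E, hb E hE, by rwa [key E hE] at h1, h1⟩

/-- **the count** -/
theorem count {SP SX : Set D} {A₂ A₃ A₄ : Finset D} {BP BX : D → Submodule ℂ T}
    (h24 : A₂ ⊆ A₄) (d2 : ∀ E ∈ A₂, E ∉ SX) (d3 : ∀ E ∈ A₃, E ∉ SP)
    (s2 : SP ⊆ SX ∪ A₂) (s3 : SX ∪ A₂ ⊆ SP ∪ A₃)
    (s4 : SP ∪ A₃ ⊆ SX ∪ A₄) (D2 : a.Dec SX A₂ BX) (D3 : a.Dec SP A₃ BP) (D4 : a.Dec SX A₄ BX)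
    (hP : a.TS SP = ⊥) {τ : D → Prop} {Φ : Submodule ℂ T → Prop}
    (hΦ : ∀ M, Φ M → ∃ x ∈ M, a.NI x) (hτX : ∀ E ∈ A₂, τ E → Φ (BX E))
    (hτP : ∀ E ∈ A₃, Φ (BP E) → τ E) (hX : ∃ x ∈ a.TS SX, a.NI x)
    (hX' : ∀ M, M ≤ a.TS SX → (∃ x ∈ M, a.NI x) → Φ M) :
    {E | E ∈ SP ∧ E ∉ SX ∧ τ E}.ncard < {E | E ∈ SX ∧ E ∉ SP ∧ τ E}.ncard := by
  classical
  have up : ∀ E ∈ A₃, ∀ b ∈ BP E, a.NI b → BP E ≤ a.TS SX ∨ ∃ F ∈ A₄, BP E ≤ BX F :=
    fun E hE b hb hn => D4.le_or ((D3.le E hE).trans (TS_mono s4)) (D3.root E hE) hb hn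
  have inS : ∀ (S : Set D), ∀ E ∈ A₃, ∀ b ∈ BP E, a.NI b → b ∈ a.TS S → E ∈ S := by
    intro S E hE b hb hn hS
    by_contra h
    exact D3.ker E hE b hb (mem_TS.1 hS E h) hn
  have ex : ∀ F ∈ A₂, τ F → ∃ E ∈ A₃, BP E = BX F := by
    intro F hF hτ
    obtain ⟨x, hx, hn⟩ := hΦ _ (hτX F hF hτ)
    rcases D3.le_or ((D2.le F hF).trans (TS_mono s3)) (D2.root F hF) hx hn with h | ⟨E, hE, h⟩
    · have h1 := h hx
      rw [hP, Submodule.mem_bot] at h1
      exact absurd (by rw [h1, map_zero]) hn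
    refine ⟨E, hE, le_antisymm ?_ h⟩
    rcases up E hE x (h hx) hn with h1 | ⟨F', hF', h1⟩
    · exact absurd (D2.orth0 F hF x (h1 (h hx)) x hx) hn
    · by_cases h2 : F' = F
      · exact h2 ▸ h1
      · exact absurd (D4.orth F' hF' F (h24 hF) h2 x (h1 (h hx)) x hx) hn
  choose! σ hσ hσ' using ex
  obtain ⟨x, hx, hn⟩ := hX
  obtain ⟨E₀, hE₀, b, hb, hbn, hxb⟩ :=
    D3.exists_comp hP (TS_mono (Set.subset_union_left.trans s3) hx) hn
  have hE₀X : BP E₀ ≤ a.TS SX := by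
    rcases up E₀ hE₀ b hb hbn with h1 | ⟨F, hF, h1⟩
    · exact h1
    · exact absurd (D4.orth0 F hF x hx b (h1 hb)) hxb
  set UX : Set D := {F | F ∈ A₂ ∧ τ F}
  set UP : Set D := {E | E ∈ SX ∪ A₂ ∧ E ∉ SP ∧ τ E}
  set C : Set D := {E | E ∈ A₂ ∧ E ∉ SP ∧ τ E}
  have fX : UX.Finite := A₂.finite_toSet.subset fun F hF => hF.1
  have fP : UP.Finite := A₃.finite_toSet.subset fun E hE => (s3 hE.1).resolve_left hE.2.1
  have hE₀U : E₀ ∈ UP := ⟨Or.inl (inS SX E₀ hE₀ b hb hbn (hE₀X hb)), d3 E₀ hE₀,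
    hτP E₀ hE₀ (hX' _ hE₀X ⟨b, hb, hbn⟩)⟩
  have hmap : ∀ F ∈ UX, σ F ∈ UP \ {E₀} := by
    rintro F ⟨hF, hτ⟩
    obtain ⟨y, hy, hyn⟩ := hΦ _ (hτX F hF hτ)
    have hy' : y ∈ BP (σ F) := by rwa [hσ' F hF hτ]
    refine ⟨⟨inS _ _ (hσ F hF hτ) y hy' hyn (D2.le F hF hy), d3 _ (hσ F hF hτ),
      hτP _ (hσ F hF hτ) (by rw [hσ' F hF hτ]; exact hτX F hF hτ)⟩, fun h => ?_⟩
    rw [Set.mem_singleton_iff.1 h] at hy'
    exact hyn (D2.orth0 F hF y (hE₀X hy') y hy)
  have hinj : Set.InjOn σ UX := by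
    rintro F ⟨hF, hτ⟩ F' ⟨hF', hτ'⟩ h
    by_contra hne
    obtain ⟨y, hy, hyn⟩ := hΦ _ (hτX F hF hτ)
    have hy' : y ∈ BX F' := by rwa [← hσ' F' hF' hτ', ← h, hσ' F hF hτ]
    exact hyn (D2.orth F hF F' hF' hne y hy y hy')
  have h1 : UX.ncard < UP.ncard :=
    (Set.ncard_le_ncard_of_injOn σ hmap hinj (fP.subset Set.sdiff_subset)).trans_lt
      (Set.ncard_sdiff_singleton_lt_of_mem hE₀U fP)
  have e1 : UX = {E | E ∈ SP ∧ E ∉ SX ∧ τ E} ∪ C := by
    ext E
    constructor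
    · rintro ⟨hE, hτ⟩
      by_cases h : E ∈ SP
      · exact Or.inl ⟨h, d2 E hE, hτ⟩
      · exact Or.inr ⟨hE, h, hτ⟩
    · rintro (⟨h, h', hτ⟩ | ⟨h, -, hτ⟩)
      · exact ⟨(s2 h).resolve_left h', hτ⟩
      · exact ⟨h, hτ⟩
  have e2 : UP = {E | E ∈ SX ∧ E ∉ SP ∧ τ E} ∪ C := by
    ext E
    constructor
    · rintro ⟨h | h, h'⟩
      · exact Or.inl ⟨h, h'⟩
      · exact Or.inr ⟨h, h'⟩
    · rintro (⟨h, h'⟩ | ⟨h, h'⟩)
      · exact ⟨Or.inl h, h'⟩
      · exact ⟨Or.inr h, h'⟩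
  rw [e1] at fX
  rw [e2] at fP
  rw [e1, e2, Set.ncard_union_eq (Set.disjoint_left.2 fun E h h' => h'.2.1 h.1)
      (fX.subset Set.subset_union_left) (fX.subset Set.subset_union_right),
    Set.ncard_union_eq (Set.disjoint_left.2 fun E h h' => d2 E h'.1 h.1)
      (fP.subset Set.subset_union_left) (fP.subset Set.subset_union_right)] at h1
  omega

end Amb

end Crest.Agent.X262.Chn
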