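import Crest.Agent.X262.Chn.Main
import Crest.Agent.X262.Form88.All
import Crest.Agent.X262.Int23.Bcg
import Crest.Agent.X262.R139.Main
import Crest.Agent.X262.Min33.Out
import Crest.Agent.X262.RR.Main
import Crest.Agent.X262.Qt.Main

/-!
# Row 262, CHN (helper49): `GWLStmt` from the leaves which are still open
-/

set_option autoImplicit false

namespace Crest.Agent.X262.Chn

open Crest.Agent.X262.Coh

/-- `GWLStmt` from the axioms of the cohomology theory, the roots, `H31`, `ISO` -/
theorem gwl_fin {C : Th} (A : C.Ax) (hR : RootStmt C) (h31 : H31Stmt C)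
    (hI : Hx56.IsoStmt C) : Top.GWLStmt :=
  have hM : Int23.MinStmt := Min33.minStmt RR.rrStmt RR.serStmt
  gwl_of A (Form88.frm_of A) Qt.qtStmt R139.model2 hR h31 (Int23.nzStmt A)
    (Int23.match_of A hM) (Int23.trans_of A hM hI)

end Crest.Agent.X262.Chn
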