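import Crest.Agent.X262.Chn.Count

/-!
# Row 262, CHN (helper49): systems of models

`M` is the set of smooth models, `D` the set of divisors, `Bu` the set of blow-ups of smooth
surfaces.  `Geo` is the geometric, `Sys` the cohomological input; `Sys.count` is the count.
-/

set_option autoImplicit false

namespace Crest.Agent.X262.Chn

/-- the geometric input -/
structure Geo (M D Bu : Type*) where
  /-- domination -/
  Ge : M → M → Prop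
  /-- the divisors of a model -/
  Dv : M → Set D
  /-- the model which is blown up -/
  lo : Bu → M
  /-- the blow-up -/
  hi : Bu → M
  /-- the exceptional divisor -/
  ex : Bu → D
  /-- the divisors which contain the centre -/
  thru : Bu → Set D
  /-- all divisors -/
  Al : Set D
  trans : ∀ {U V W}, Ge U V → Ge V W → Ge U W
  mono : ∀ {U V}, Ge U V → Dv V ⊆ Dv U
  al : ∀ U, Dv U ⊆ Al
  fin : ∀ U V, (Dv U \ Dv V).Finite
  dir : ∀ (s : Finset M), s.Nonempty → ∃ U, ∀ V ∈ s, Ge U V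
  ge : ∀ b, Ge (hi b) (lo b)
  ex_notMem : ∀ b, ex b ∉ Dv (lo b)
  dv_hi : ∀ b, Dv (hi b) = insert (ex b) (Dv (lo b))
  qt : ∀ P, ∃ (dep : D → ℕ) (Pd : D → Finset D),
    (∀ E ∈ Al \ Dv P, ∀ E' ∈ Pd E, E' ∈ Al \ Dv P ∧ dep E' < dep E) ∧
    ∀ (A : Finset D), ↑A ⊆ Al \ Dv P → ∀ E ∈ A, ∃ b, ex b = E ∧ Ge (lo b) P ∧
      (∀ E' ∈ A, E' ≠ E → dep E' ≤ dep E → E' ∈ Dv (lo b)) ∧
      ∀ W ∈ Dv (lo b), W ∈ thru b → W ∈ Dv P ∨ W ∈ Pd E

/-- the cohomological input -/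
structure Sys {M D Bu : Type*} (g : Geo M D Bu) (T : M → Type*) [∀ U, AddCommGroup (T U)]
    [∀ U, Module ℂ (T U)] where
  /-- form, restrictions and roots -/
  amb : ∀ U, Amb (T U) D
  /-- pull-back -/
  pb : ∀ {U V}, g.Ge U V → T V →ₗ[ℂ] T U
  /-- the new block -/
  blk : ∀ b, Submodule ℂ (T (g.hi b))
  pb_pb : ∀ {U V W} (h : g.Ge U V) (h' : g.Ge V W) (x : T W),
    pb h (pb h' x) = pb (g.trans h h') x
  β_pb : ∀ {U V} (h : g.Ge U V) (x y : T V), (amb U).β (pb h x) (pb h y) = (amb V).β x y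
  fact : ∀ {U V} (h : g.Ge U V), (amb U).TS (g.Dv V) = LinearMap.range (pb h)
  span : ∀ b (x : T (g.hi b)), ∃ x₀, ∃ c ∈ blk b, x = pb (g.ge b) x₀ + c
  orth : ∀ b x₀, ∀ c ∈ blk b, (amb (g.hi b)).β (pb (g.ge b) x₀) c = 0
  junk : ∀ b {U} (h : g.Ge U (g.hi b)), ∀ W ∈ g.Dv (g.lo b), W ∉ g.thru b →
    ∀ c ∈ blk b, pb h c ∈ (amb U).Kr W
  rt : ∀ {U V} (h : g.Ge U V) (x : T V), (amb V).NI x → (pb h x ∈ (amb U).Rt ↔ x ∈ (amb V).Rt)
  bl : ∀ b, ∀ c ∈ blk b, (amb (g.hi b)).NI c → c ∈ (amb (g.hi b)).Rt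
  pr : ∀ b, ∀ x ∈ (amb (g.hi b)).Rt, (amb (g.hi b)).NI x →
    x ∈ LinearMap.range (pb (g.ge b)) ∨ x ∈ blk b

namespace Sys

variable {M D Bu : Type*} {g : Geo M D Bu} {T : M → Type*} [∀ U, AddCommGroup (T U)]
  [∀ U, Module ℂ (T U)] (s : Sys g T)

theorem ni_pb {U V : M} (h : g.Ge U V) (x : T V) : (s.amb U).NI (s.pb h x) ↔ (s.amb V).NI x := by
  unfold Amb.NI
  rw [s.β_pb]

/-- the step of one blow-up, read on a higher model -/
theorem stepAt (b : Bu) {U : M} (h : g.Ge U (g.hi b)) {J : Set D}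
    (hJ : ∀ W ∈ g.Dv (g.lo b), W ∈ g.thru b → W ∈ J) :
    (s.amb U).StepAt (g.Dv (g.lo b)) J (g.ex b) ((s.blk b).map (s.pb h)) := by
  have e1 := s.fact h
  have e0 := s.fact (g.trans h (g.ge b))
  rw [g.dv_hi] at e1
  refine ⟨g.ex_notMem b, ?_, ?_, ?_, ?_, ?_, ?_⟩
  · rw [e1]
    exact LinearMap.map_le_range
  · rw [e0]
    rintro _ ⟨x, rfl⟩ _ ⟨c, hc, rfl⟩
    rw [← s.pb_pb h (g.ge b), s.β_pb]
    exact s.orth b x c hc
  · rw [e1, e0]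
    rintro _ ⟨x, rfl⟩
    obtain ⟨x₀, c, hc, rfl⟩ := s.span b x
    exact ⟨_, ⟨x₀, rfl⟩, _, ⟨c, hc, rfl⟩, by rw [map_add, s.pb_pb]⟩
  · rintro _ ⟨c, hc, rfl⟩ hn
    rw [ni_pb] at hn
    exact (s.rt h c hn).2 (s.bl b c hc hn)
  · rw [e1, e0]
    rintro _ hx hn ⟨x, rfl⟩
    rw [ni_pb] at hn
    rcases s.pr b x ((s.rt h x hn).1 hx) hn with ⟨x₀, rfl⟩ | h1
    · exact Or.inl ⟨x₀, (s.pb_pb _ _ _).symm⟩
    · exact Or.inr ⟨x, h1, rfl⟩
  · rintro W hW hWJ _ ⟨c, hc, rfl⟩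
    exact s.junk b h W hW (fun h1 => hWJ (hJ W hW h1)) c hc

/-- **the count for a system**: `Φ` is a property of blocks which is equivalent to the property `τ`
of the divisor -/
theorem count (P X : M) (hP : ∀ x : T P, x = 0) (hX : ∃ x : T X, (s.amb X).NI x) {τ : D → Prop}
    {Φ : ∀ U, Submodule ℂ (T U) → Prop} (hΦ : ∀ U N, Φ U N → ∃ x ∈ N, (s.amb U).NI x)
    (hτ : ∀ b U (h : g.Ge U (g.hi b)), g.Ge U P → g.Ge U X →
      (τ (g.ex b) ↔ Φ U ((s.blk b).map (s.pb h))))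
    (hX' : ∀ U (h : g.Ge U X), g.Ge U P → ∀ N, N ≤ LinearMap.range (s.pb h) →
      (∃ x ∈ N, (s.amb U).NI x) → Φ U N) :
    {E | E ∈ g.Dv P ∧ E ∉ g.Dv X ∧ τ E}.ncard < {E | E ∈ g.Dv X ∧ E ∉ g.Dv P ∧ τ E}.ncard := by
  classical
  obtain ⟨dP, pP, hP1, hP2⟩ := g.qt P
  obtain ⟨dX, pX, hX1, hX2⟩ := g.qt X
  obtain ⟨A₂, s2, e2, c2⟩ := Amb.exists_clo hX1 (g.fin P X).toFinset fun E hE =>
    ⟨g.al P ((g.fin P X).mem_toFinset.1 hE).1, ((g.fin P X).mem_toFinset.1 hE).2⟩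
  have f3 : ((g.Dv X ∪ A₂) \ g.Dv P).Finite := by
    rw [Set.union_sdiff_distrib]
    exact (g.fin X P).union (A₂.finite_toSet.subset Set.sdiff_subset)
  obtain ⟨A₃, s3, e3, c3⟩ := Amb.exists_clo hP1 f3.toFinset fun E hE =>
    ⟨(f3.mem_toFinset.1 hE).1.elim (fun h => g.al X h) fun h => (e2 h).1, (f3.mem_toFinset.1 hE).2⟩
  have f4 : ((g.Dv P ∪ A₃) \ g.Dv X).Finite := by
    rw [Set.union_sdiff_distrib]
    exact (g.fin P X).union (A₃.finite_toSet.subset Set.sdiff_subset)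
  obtain ⟨A₄, s4, e4, c4⟩ := Amb.exists_clo hX1 f4.toFinset fun E hE =>
    ⟨(f4.mem_toFinset.1 hE).1.elim (fun h => g.al P h) fun h => (e3 h).1, (f4.mem_toFinset.1 hE).2⟩
  have t2 : g.Dv P ⊆ g.Dv X ∪ A₂ := fun E hE => (em (E ∈ g.Dv X)).imp_right fun h =>
    s2 ((g.fin P X).mem_toFinset.2 ⟨hE, h⟩)
  have t3 : g.Dv X ∪ A₂ ⊆ g.Dv P ∪ A₃ := fun E hE => (em (E ∈ g.Dv P)).imp_right fun h =>
    s3 (f3.mem_toFinset.2 ⟨hE, h⟩)
  have t4 : g.Dv P ∪ A₃ ⊆ g.Dv X ∪ A₄ := fun E hE => (em (E ∈ g.Dv X)).imp_right fun h =>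
    s4 (f4.mem_toFinset.2 ⟨hE, h⟩)
  have h24 : A₂ ⊆ A₄ := fun E hE => (t4 (t3 (Or.inr hE))).resolve_left (e2 hE).2
  choose bP p1 p2 p3 p4 using hP2 A₃ e3
  choose bX x1 x2 x3 x4 using hX2 A₄ e4
  obtain ⟨U, hU⟩ := g.dir (insert P (insert X
    (A₃.attach.image (fun E : A₃ => g.hi (bP E.1 E.2)) ∪ A₄.attach.image fun E : A₄ => g.hi (bX E.1 E.2))))
    (Finset.insert_nonempty _ _)
  have uP : g.Ge U P := hU P (by simp)
  have uX : g.Ge U X := hU X (by simp)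
  have u3 : ∀ E (hE : E ∈ A₃), g.Ge U (g.hi (bP E hE)) := fun E hE => hU _ (by
    simp only [Finset.mem_insert, Finset.mem_union, Finset.mem_image]
    exact Or.inr (Or.inr (Or.inl ⟨⟨E, hE⟩, Finset.mem_attach _ _, rfl⟩)))
  have u4 : ∀ E (hE : E ∈ A₄), g.Ge U (g.hi (bX E hE)) := fun E hE => hU _ (by
    simp only [Finset.mem_insert, Finset.mem_union, Finset.mem_image]
    exact Or.inr (Or.inr (Or.inr ⟨⟨E, hE⟩, Finset.mem_attach _ _, rfl⟩)))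
  let BP : D → Submodule ℂ (T U) := fun E =>
    if hE : E ∈ A₃ then (s.blk (bP E hE)).map (s.pb (u3 E hE)) else ⊥
  let BX : D → Submodule ℂ (T U) := fun E =>
    if hE : E ∈ A₄ then (s.blk (bX E hE)).map (s.pb (u4 E hE)) else ⊥
  have sP : (s.amb U).Steps (g.Dv P) (fun E => ↑(pP E)) dP A₃ BP := by
    intro E hE
    refine ⟨_, ?_, g.mono (p2 E hE), p3 E hE⟩
    have := s.stepAt (bP E hE) (u3 E hE) (J := g.Dv P ∪ ↑(pP E)) (p4 E hE)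
    rw [p1] at this
    simpa only [BP, dif_pos hE] using this
  have sX : (s.amb U).Steps (g.Dv X) (fun E => ↑(pX E)) dX A₄ BX := by
    intro E hE
    refine ⟨_, ?_, g.mono (x2 E hE), x3 E hE⟩
    have := s.stepAt (bX E hE) (u4 E hE) (J := g.Dv X ∪ ↑(pX E)) (x4 E hE)
    rw [x1] at this
    simpa only [BX, dif_pos hE] using this
  have dX' : ∀ E ∈ A₄, ∀ E' ∈ (↑(pX E) : Set D), dX E' < dX E := fun E hE E' hE' =>
    (hX1 E (e4 hE) E' hE').2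
  refine Amb.count (a := s.amb U) (Φ := Φ U) h24 (fun E hE => (e2 hE).2) (fun E hE => (e3 hE).2)
    t2 t3 t4 (sX.dec dX' A₂ h24 c2)
    (sP.dec (fun E hE E' hE' => (hP1 E (e3 hE) E' hE').2) A₃ subset_rfl c3)
    (sX.dec dX' A₄ subset_rfl c4) ?_ (hΦ U) (fun E hE h => ?_) (fun E hE h => ?_) ?_
    fun N hN => hX' U uX uP N (s.fact uX ▸ hN)
  · rw [s.fact uP, eq_bot_iff]
    rintro _ ⟨x, rfl⟩
    rw [hP x, map_zero]
    exact zero_mem _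
  · have := (hτ (bX E (h24 hE)) U (u4 E (h24 hE)) uP uX).1 (by rwa [x1])
    simpa only [BX, dif_pos (h24 hE)] using this
  · rw [← p1 E hE]
    exact (hτ (bP E hE) U (u3 E hE) uP uX).2 (by simpa only [BP, dif_pos hE] using h)
  · obtain ⟨x, hx⟩ := hX
    exact ⟨s.pb uX x, s.fact uX ▸ ⟨x, rfl⟩, (s.ni_pb uX x).2 hx⟩

end Sys

end Crest.Agent.X262.Chn
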