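import Crest.Agent.X262.Chn.Defs
import Crest.Agent.X262.Chn.Sys
import Crest.Agent.X262.Top.Bal
import Crest.Agent.X262.Geo.Dv
import Crest.Agent.X262.Form88.Pur
import Crest.Agent.X277.Unf.Main

/-!
# Row 262, CHN (helper49): the geometric system of the smooth models of `K`

* `Ge.refl`, `Ge.trans`, `Ge.prm`, `exists_ge`;
* `Bw.le_of_pts`, `Bw.cen`, `Bw.eq_V` : the local ring of the centre determines the divisor;
* `geo` : the instance of `Geo`.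
-/

set_option autoImplicit false

noncomputable section

namespace Crest.Agent.X262.Chn

open Crest.Agent.X277 Crest.Agent.X277.Lef Crest.Agent.X277.AN.G1 Crest.Agent.X277.BD
open Crest.Agent.X277.BD.Br (On oP On_le_iff oP_mem free_oP)
open Crest.Agent.X277.Pst (Prm Dvs loc)
open Crest.Agent.X277.Res.Out (Van Un Coords)
open Crest.Agent.X277.Res.Out.Lb (Cen)
open Crest.Agent.X262.Coh
open scoped KaehlerDifferential

variable {K : Type} [Field K] [Algebra ℂ K] {U V W : PModel ℂ K}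

theorem Ge.refl (U : PModel ℂ K) : Ge U U := oP_mem

theorem Ge.trans (h : Ge U V) (h' : Ge V W) : Ge U W := On_le_iff.2 h h'

theorem Ge.prm (h : Ge U V) {E : RZ ℂ K} (hE : Prm (oP V) E) : Prm (oP U) E :=
  have := Geo.eft U
  Geo.prm_up h hE

theorem Ge.loc_le (h : Ge U V) (E : RZ ℂ K) : loc (oP V) E ≤ loc (oP U) E :=
  (Geo.car_of_On h).loc_le E

theorem exists_ge (s : Finset (PModel ℂ K)) (hs : s.Nonempty) : ∃ U, ∀ V ∈ s, Ge U V := by
  classical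
  obtain ⟨P, -⟩ := hs
  obtain ⟨U, -, h⟩ := Unf.exists_on_ge P (s.image oP)
  exact ⟨U, fun V hV => h _ (Finset.mem_image_of_mem _ hV)⟩

theorem mor_comp (h : Ge U V) (h' : Ge V W) :
    (Mor.comp (mor h') (mor h)).map = (mor (h.trans h')).map :=
  funext fun _ => ((mor (h.trans h')).map_eq ⟨fun _ hf =>
    ⟨trivial, (Mor.comp (mor h') (mor h)).π_mem hf⟩,
    fun _ hf => ((Mor.comp (mor h') (mor h)).ev_map hf).symm⟩).symm

theorem Alg.comp {Q : SV} {u : Hom Q (sv U)} {E : RZ ℂ K} (hu : Alg u E) (h : Ge U V) :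
    Alg (U := V) (Mor.comp (mor h) u) E :=
  fun f => ⟨fun h1 => (hu f).1 h1.2, fun h1 => ⟨trivial, (hu f).2 h1⟩⟩

namespace Bw

variable (b : Bw K) {E : RZ ℂ K}

/-- a valuation ring which contains the local rings of all points of the centre contains the local
ring of the centre -/
theorem le_of_pts (h : ∀ z : b.Z.Pt, ∀ f ∈ (lp (b.i.map z)).O, f ∈ E.1) :
    ∀ f ∈ b.i.p.O, f ∈ E.1 := by
  intro f hf
  obtain ⟨z₀⟩ : Nonempty b.Z.Pt := inferInstance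
  obtain ⟨c, hc, h0, h1⟩ := b.lcl z₀ f hf
  obtain ⟨z, -, h2, h3⟩ := Form88.res_exists ((Form88.res_mem' b.i z₀ hc).and (Form88.res_ev h0))
    isOpen_univ Set.univ_nonempty
  rw [← b.i.ev_map h2] at h3
  rw [← inv_mul_cancel_left₀ (LP.ne_zero_of_ne h3) f]
  exact mul_mem (h z _ ((lp (b.i.map z)).inv_mem h3)) (h z₀ _ h1)

theorem exists_chart : ∃ l, b.lo.A l ≤ b.i.p.O := by
  obtain ⟨z⟩ : Nonempty b.Z.Pt := inferInstance
  obtain ⟨l, hl⟩ := exists_pat (b.i.map z)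
  exact ⟨l, (A_le hl).trans (Form88.le_map b.i z)⟩

/-- a prime divisor through the centre is a localisation of the ring of the centre -/
theorem cen (hE : Prm (oP b.lo) E) (h : ∀ f ∈ b.i.p.O, f ∈ E.1) : Cen E.1 b.i.p.O := by
  have := Geo.eft b.lo
  obtain ⟨l, hl⟩ := b.exists_chart
  refine ⟨h, fun x hx => ?_⟩
  obtain ⟨c, h1, h2, h3⟩ := Geo.exists_den (fun y hy => h y (hl hy))
    (Neg.le_loc free_oP (Geo.isMod_oP b.lo).bir hE hx)
  exact ⟨c, hl h1, h2, hl h3⟩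

theorem le_loc (h : Qt.Dom E.1 b.i.p.O) : b.i.p.O ≤ loc (oP b.lo) E := by
  intro f hf
  obtain ⟨z⟩ : Nonempty b.Z.Pt := inferInstance
  obtain ⟨c, hc, h0, h1⟩ := b.lcl z f hf
  have h2 : Cns.Ov (b.i.map z) E.1 := fun g hg => h.le g (b.i.mem_O hg)
  have h3 : E.v c = 1 := (h.un_iff (b.i.mem_O hc)).1
    ⟨Plc.ne_zero_of_ne h0, b.i.mem_O hc, b.i.p.inv_mem h0⟩
  rw [← inv_mul_cancel_left₀ (Plc.ne_zero_of_ne h0) f]
  exact mul_mem (Neg.inv_mem_loc (Geo.lp_le_loc h2 hc) h3) (Geo.lp_le_loc h2 h1)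

/-- the exceptional divisor is the order valuation of the local ring of the centre -/
theorem eq_V {t : Fin 2 → K} (hE : Dvs E) (h : Qt.Ord2 b.i.p.O t E.1) : b.V = E := by
  have := Geo.eft b.lo
  have hf : Qt.Fr b.i.p.O t := h.coords.der.imp fun d hd =>
    ⟨fun l => (h.coords.van l).1, hd.1, hd.2⟩
  have h0 := hf.ne_zero 0
  have hu : t 1 / t 0 ∈ E.1 := h.cen.le _ (Qt.mem_adj rfl)
  have h1 : b.i.p.O ≤ loc (oP b.hi) E := (b.le_loc h.dom).trans (b.ge.loc_le E)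
  obtain ⟨g, g1, g2, g3⟩ := b.pri E h.dom.le
  have h2 : g / t 0 ∈ E.1 := by
    obtain ⟨r, hr, rfl⟩ := h.coords.gen g g1
    rw [Fin.sum_univ_two, add_div, mul_div_assoc, mul_div_assoc, div_self h0, mul_one]
    exact add_mem (h.dom.le _ (hr 0)) (mul_mem (h.dom.le _ (hr 1)) hu)
  have h3 := g3 _ (h.coords.van 0)
  have h4 : E.v (t 0 / g) = 1 := Cns.un_iff_val.1
    ⟨div_ne_zero h0 g2, Pst.mem_of_loc h3, by rwa [inv_div]⟩
  have h5 : t 1 / t 0 ∈ loc (oP b.hi) E := by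
    have h6 := mul_mem (g3 _ (h.coords.van 1)) (Neg.inv_mem_loc h3 h4)
    rwa [inv_div, div_mul_div_cancel₀ g2] at h6
  have h6 : Qt.adj b.i.p.O {t 1 / t 0} ≤ loc (oP b.hi) E :=
    Qt.adj_le h1 fun x hx => Set.mem_singleton_iff.1 hx ▸ h5
  have h7 : Prm (oP b.hi) E := by
    refine Geo.prm_of_loc (Geo.isMod_oP _) (Neg.isNv_nv hE) fun x hx => ?_
    obtain ⟨c, c1, c2, c3⟩ := h.cen.loc x hx
    rw [← inv_mul_cancel_left₀ (Qt.ne_of_val c2) x]
    exact mul_mem (Neg.inv_mem_loc (h6 c1) c2) (h6 c3)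
  refine ((b.prm E).1 h7).elim Eq.symm fun h8 => ?_
  exact absurd (h.dom.of_le (b.cen h8 h.dom.le) _ hu)
    (hf.div_notMem (h.coords.van 0) (by decide))

end Bw

/-- **the geometric system** -/
def geo (hq : Qt.QtStmt) (hm : ModStmt) (β : Module.Basis (Fin 4) K Ω[K⁄ℂ])
    (Sp : Bw K → Prop) (ex : ∀ (V : PModel ℂ K) (O : Subalgebra ℂ K) (t : Fin 2 → K),
      Qt.SmZ V O 4 2 → Coords O t → mxf ℂ ![1, t 0, t 1] ∈ On V →
        ∃ b, Sp b ∧ Ge b.lo V ∧ b.i.p.O = O) : Geo (PModel ℂ K) (RZ ℂ K) {b // Sp b} where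
  Ge := Ge
  Dv U := {E | Prm (oP U) E}
  lo b := b.1.lo
  hi b := b.1.hi
  ex b := b.1.V
  thru b := {E | ∀ f ∈ b.1.i.p.O, f ∈ E.1}
  Al := {E | Dvs E}
  trans := Ge.trans
  mono h _ hE := h.prm hE
  al _ _ hE := hE.dvs
  fin U V :=
    have := Geo.eft U
    Top.fin_prm free_oP (Geo.isMod_oP U).bir (Geo.isMod_oP V).bir
  dir := exists_ge
  ge b := b.1.ge
  ex_notMem b := b.1.nprm
  dv_hi b := Set.ext b.1.prm
  qt P := by
    classical
    obtain ⟨a, ha⟩ := hq K P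
    choose! i U t Pd h using fun E (hE : E ∈ {E | Dvs E} \ {E | Prm (oP P) E}) => ha E hE.1 hE.2
    refine ⟨a, Pd, fun E hE E' hE' => ?_, fun A hA E hE => ?_⟩
    · exact ⟨⟨((h E hE).pd E' hE').1, ((h E hE).pd E' hE').2.1⟩, ((h E hE).pd E' hE').2.2⟩
    have h1 := h E (hA hE)
    obtain ⟨V, v1, v2, v3, v4⟩ := hm K 4 β P E (i E) (U E) (t E)
      (A.filter fun E' => E' ≠ E ∧ a E' ≤ a E) h1.chart h1.mem h1.ord.coords fun E' hE' => by
        obtain ⟨h2, h3, h4⟩ := Finset.mem_filter.1 hE'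
        exact ⟨(hA h2).1, fun h5 => (h1.dom E' (hA h2).1 h5).elim h3 (not_lt.2 h4)⟩
    obtain ⟨b, b1, b2, b3⟩ := ex V _ _ v2 h1.ord.coords v4
    refine ⟨⟨b, b1⟩, b.eq_V (hA hE).1 (b3 ▸ h1.ord), b2.trans v1, fun E' h2 h3 h4 =>
      b2.prm (v3 E' (Finset.mem_filter.2 ⟨h2, h3, h4⟩)), fun E' h2 h3 => ?_⟩
    exact h1.cen E' h2.1 (b3 ▸ b.cen h2 h3)

end Crest.Agent.X262.Chn
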