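import Crest.Agent.X262.Chn.Blk
import Crest.Agent.X262.Rul.NoPG

/-!
# Row 262, CHN (helper49): the glue

* `amb`, `sys` : the cohomological system on the models of `K`;
* `gwl_of`     : `GWLStmt` from the statements of `Chn/Defs`.
-/

set_option autoImplicit false

open scoped KaehlerDifferential

noncomputable section

namespace Crest.Agent.X262.Chn

open Crest.Agent.X277 Crest.Agent.X277.Lef Crest.Agent.X277.AN.G1 Crest.Agent.X277.BD
open Crest.Agent.X277.BD.Br (On oP)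
open Crest.Agent.X277.BD.Cyc (Rf)
open Crest.Agent.X277.Pst (Prm Dvs)
open Crest.Agent.X262.Coh Crest.Agent.X262.Top

variable {C : Th} {K : Type} [Field K] [Algebra ℂ K] {U V : PModel ℂ K}

/-- form, restrictions and roots on one model -/
def amb (A : C.Ax) (R : Roots K C) (U : PModel ℂ K) : Amb (Om C U) (RZ ℂ K) where
  β := AddMonoidHom.mk' (fun x => AddMonoidHom.mk' (fun y => hf C (sv U) x y)
    fun y y' => hf_add_right _ _ _) fun x x' => AddMonoidHom.ext fun y => hf_add_left _ _ _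
  symm x y h := (hf_symm A _ _).trans (by rw [show hf C (sv U) x y = 0 from h, map_zero])
  Kr W := ⨅ (_ : Dvs W) (Q : SV) (u : Hom Q (sv U)) (_ : Alg u W),
    LinearMap.ker ((C.pb u).toLinearMap ∘ₗ (Om C U).subtype)
  Rt := {x | (x : C.H (sv U)) ∈ R.Rt U}

theorem mem_Kr {A : C.Ax} {R : Roots K C} {W : RZ ℂ K} {x : Om C U} : x ∈ (amb A R U).Kr W ↔
    (Dvs W → ∀ (Q : SV) (u : Hom Q (sv U)), Alg u W → C.pb u x = 0) := by
  simp [amb, Submodule.mem_iInf]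

/-- the pull-back on classes of type `(3,1)` -/
def pbO (A : C.Ax) (h : Ge U V) : Om C V →ₗ[ℂ] Om C U :=
  (C.pb (mor h)).toLinearMap.restrict fun x hx => A.typ.pb _ x hx

theorem coe_pbO (A : C.Ax) (h : Ge U V) (x : Om C V) :
    (pbO A h x : C.H (sv U)) = C.pb (mor h) x := rfl

theorem mem_range_pbO {A : C.Ax} {h : Ge U V} {x : Om C U} :
    x ∈ LinearMap.range (pbO A h) ↔ (x : C.H (sv U)) ∈ up C h (Om C V) :=
  ⟨fun ⟨y, hy⟩ => ⟨y, y.2, congrArg Subtype.val hy⟩,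
    fun ⟨y, h1, h2⟩ => ⟨⟨y, h1⟩, Subtype.ext h2⟩⟩

theorem map_pbO (A : C.Ax) (h : Ge U V) {N : Submodule ℂ (C.H (sv V))} (hN : N ≤ Om C V) :
    ((N.comap (Om C V).subtype).map (pbO A h)).map (Om C U).subtype = up C h N := by
  ext x
  constructor
  · rintro ⟨_, ⟨y, hy, rfl⟩, rfl⟩
    exact ⟨y, hy, rfl⟩
  · rintro ⟨y, hy, rfl⟩
    exact ⟨_, ⟨⟨y, hN hy⟩, hy, rfl⟩, rfl⟩

/-- **the cohomological system** -/
def sys (A : C.Ax) (F : Frm C) (hq : Qt.QtStmt) (hm : ModStmt)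
    (β : Module.Basis (Fin 4) K Ω[K⁄ℂ]) (R : Roots K C) :
    Sys (geo hq hm β R.Sp R.ex) fun U => Om C U where
  amb := amb A R
  pb h := pbO A h
  blk b := (b.1.blk C).comap (Om C b.1.hi).subtype
  pb_pb h h' x := Subtype.ext (pb_mor A h h' x)
  β_pb h x y := hf_pb A (bim_mor h) x y
  fact {U V} h := by
    ext x
    refine Amb.mem_TS.trans (Iff.trans ?_ (mem_range_pbO (A := A) (h := h)).symm)
    refine ⟨fun h1 => mem_up A F h x.2 fun W Q u h2 h3 hu => mem_Kr.1 (h1 W h3) h2.dvs Q u hu, ?_⟩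
    rintro ⟨y, hy, h1⟩ W hW
    refine mem_Kr.2 fun h2 Q u hu => ?_
    rw [← h1]
    exact (A.man.pb_comp (mor h) u y).symm.trans (F.exc _ W (hu.comp h) h2 hW 3 1
      (by simpa using (Module.finrank_eq_card_basis β).symm) y hy)
  span b x := by
    obtain ⟨x₀, h1, c, h2, h3⟩ := Bw.span A F (R.lh _ b.2) x.2
    exact ⟨⟨x₀, h1⟩, ⟨c, b.1.blk_le A h2⟩, h2, Subtype.ext h3⟩
  orth b x₀ c hc := by
    obtain ⟨σ, -, h⟩ := hc
    exact (congrArg (hf C _ _) h).symm.trans (b.1.orth A x₀.2 σ)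
  junk b U h W _ hW c hc := mem_Kr.2 fun _ Q u hu =>
    (A.man.pb_comp (mor h) u c).symm.trans (Bw.junk A F hW (hu.comp h) hc)
  rt h x hx := R.rt h x x.2 hx
  bl b c hc hn := R.bl _ b.2 c.1 hc hn
  pr b x hx hn := (R.pr _ b.2 x.1 x.2 hx hn).imp_left (mem_range_pbO (A := A)).2

/-- **the glue** -/
theorem gwl_of (A : C.Ax) (F : Frm C) (hq : Qt.QtStmt) (hm : ModStmt) (hR : RootStmt C)
    (h31 : H31Stmt C) (hN : NZStmt C) (hM : MatchStmt C) (hT : TransStmt C) : GWLStmt := by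
  intro D
  obtain ⟨D', hT⟩ := hT D
  refine ⟨D', fun G hG hX K _ _ Y X hB => ?_⟩
  obtain ⟨β⟩ := Brg.Hyp0.basis_of_free (Rul.hyp_free Y).1 (Rul.hyp_free Y).2
  obtain ⟨R⟩ := hR K ⟨Y⟩
  have hd : BD.dim ℂ K = 4 := by simpa using Module.finrank_eq_card_basis β
  let s := sys A F hq hm β R
  refine (s.count Y.P X.P (fun x => ?_) ?_ (τ := fun V => Typ D (Rf V))
    (Φ := fun U N => (∃ x ∈ N, (s.amb U).NI x) ∧ ∀ (b : {b // R.Sp b}) (h : Ge U b.1.hi),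
      N.map (Om C U).subtype = up C h (b.1.blk C) → Typ D (Rf b.1.V))
    (fun _ _ h => h.1) (fun b U h _ _ => ⟨fun h1 => ⟨?_, fun b' h' h2 => ?_⟩, fun h1 =>
      h1.2 b h (map_pbO A h (b.1.blk_le A))⟩) fun U h _ N h1 h2 => ⟨h2, fun b h' h3 => ?_⟩).ne
    (hB _ (inv_typ D) fun _ h => h)
  · exact Subtype.ext ((Submodule.eq_bot_iff _).1 (om_eq_bot A Y) x x.2)
  · obtain ⟨x, h1, h2⟩ := exists_ni A (X := sv X.P) (p := 3) (q := 1) hd.symm (h31 G hG K X)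
    exact ⟨⟨x, h1⟩, h2⟩
  · obtain ⟨x, h2, h3⟩ := Bw.exists_ni_blk A (R.lh _ b.2) (hN K D b.1 h1)
    exact ⟨_, ⟨⟨x, b.1.blk_le A h2⟩, h2, rfl⟩, (ni_pb A (bim_mor h)).2 h3⟩
  · exact hM K D b.1 b'.1 U h h' (R.lh _ b.2) (R.lh _ b'.2)
      ((map_pbO A h (b.1.blk_le A)).symm.trans h2) h1
  · refine hT G hG hX K X ⟨Y⟩ b.1 U h' h (R.lh _ b.2) (fun h4 => ?_) ?_
    · obtain ⟨x, h5, h6⟩ := h2
      have h7 : (x : C.H (sv U)) ∈ up C h' (b.1.blk C) := h3 ▸ ⟨x, h5, rfl⟩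
      rw [Bw.blk, h4, Submodule.map_bot, up, Submodule.map_bot] at h7
      exact NI.ne_zero h6 h7
    · rw [← h3]
      rintro _ ⟨x, h4, rfl⟩
      exact (mem_range_pbO (A := A)).1 (h1 h4)

end Crest.Agent.X262.Chn
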